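import Mathlib

/-!
# Good covers of compact smooth manifolds (package UNI-COVER of P267, helper368)
-/

open Set Filter Topology Metric

namespace Vale.Agent.P267.H368

section Normed

variable {E F : Type*} [NormedAddCommGroup E] [NormedSpace ℝ E]

/-- a function with Lipschitz derivative is close to its chords -/
theorem chord_estimate [NormedAddCommGroup F] [NormedSpace ℝ F] {f : E → F} {s : Set E}
    (hs : Convex ℝ s) (hf : ∀ x ∈ s, DifferentiableAt ℝ f x) {L : ℝ} (_hL : 0 ≤ L)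
    (hL' : ∀ x ∈ s, ∀ y ∈ s, ‖fderiv ℝ f x - fderiv ℝ f y‖ ≤ L * ‖x - y‖)
    {x y : E} (hx : x ∈ s) (hy : y ∈ s) {t : ℝ} (ht0 : 0 ≤ t) (ht1 : t ≤ 1) :
    ‖f ((1 - t) • x + t • y) - ((1 - t) • f x + t • f y)‖ ≤ L * (t * (1 - t)) * ‖y - x‖ ^ 2 := by
  set z := (1 - t) • x + t • y with hz
  have hzs : z ∈ s := hs hx hy (by linarith) ht0 (by ring)
  -- remainder estimate from `z`
  have key : ∀ w ∈ s, ‖f w - f z - fderiv ℝ f z (w - z)‖ ≤ L * ‖w - z‖ * ‖w - z‖ := by
    intro w hw
    have hseg : segment ℝ z w ⊆ s := hs.segment_subset hzs hw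
    have := (convex_segment (𝕜 := ℝ) z w).norm_image_sub_le_of_norm_hasFDerivWithin_le'
      (f := f) (f' := fun u => fderiv ℝ f u) (φ := fderiv ℝ f z) (C := L * ‖w - z‖)
      (fun u hu => (hf u (hseg hu)).hasFDerivAt.hasFDerivWithinAt)
      (fun u hu => by
        refine (hL' u (hseg hu) z hzs).trans ?_
        gcongr
        exact norm_sub_le_of_mem_segment hu)
      (left_mem_segment ℝ z w) (right_mem_segment ℝ z w)
    exact this
  have h1 := key x hx
  have h2 := key y hy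
  have e1 : x - z = t • (x - y) := by
    rw [hz]; module
  have e2 : y - z = (1 - t) • (y - x) := by
    rw [hz]; module
  have n1 : ‖x - z‖ = t * ‖y - x‖ := by
    rw [e1, norm_smul, Real.norm_of_nonneg ht0, norm_sub_rev]
  have n2 : ‖y - z‖ = (1 - t) * ‖y - x‖ := by
    rw [e2, norm_smul, Real.norm_of_nonneg (by linarith)]
  have hid : f z - ((1 - t) • f x + t • f y)
      = -((1 - t) • (f x - f z - fderiv ℝ f z (x - z)) + t • (f y - f z - fderiv ℝ f z (y - z))) := by
    have : (1 - t) • fderiv ℝ f z (x - z) + t • fderiv ℝ f z (y - z) = 0 := by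
      rw [← map_smul, ← map_smul, ← map_add, e1, e2]
      have : (1 - t) • t • (x - y) + t • (1 - t) • (y - x) = 0 := by module
      rw [this, map_zero]
    have h' : fderiv ℝ f z (x - z) = fderiv ℝ f z (x - z) := rfl
    generalize fderiv ℝ f z (x - z) = p at *
    generalize fderiv ℝ f z (y - z) = q at *
    have : -((1 - t) • (f x - f z - p) + t • (f y - f z - q))
        = f z - ((1 - t) • f x + t • f y) + ((1 - t) • p + t • q) := by module
    rw [this, ‹(1 - t) • p + t • q = 0›, add_zero]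
  rw [hid, norm_neg]
  refine (norm_add_le _ _).trans ?_
  rw [norm_smul, norm_smul, Real.norm_of_nonneg ht0, Real.norm_of_nonneg (by linarith : (0:ℝ) ≤ 1 - t)]
  rw [n1] at h1
  rw [n2] at h2
  calc (1 - t) * ‖f x - f z - fderiv ℝ f z (x - z)‖ + t * ‖f y - f z - fderiv ℝ f z (y - z)‖
      ≤ (1 - t) * (L * (t * ‖y - x‖) * (t * ‖y - x‖))
        + t * (L * ((1 - t) * ‖y - x‖) * ((1 - t) * ‖y - x‖)) := by
        have : 0 ≤ 1 - t := by linarith
        gcongr
    _ = L * (t * (1 - t)) * ‖y - x‖ ^ 2 := by ring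

/-- preimages of small balls of an inner product space under a `C^{1,1}` antilipschitz map are
convex -/
theorem convex_sublevel [NormedAddCommGroup F] [InnerProductSpace ℝ F] {ψ : E → F} {s : Set E}
    (hs : Convex ℝ s) (hf : ∀ x ∈ s, DifferentiableAt ℝ ψ x) {L κ ρ : ℝ} (hL : 0 ≤ L)
    (hκ : 0 < κ)
    (hL' : ∀ x ∈ s, ∀ y ∈ s, ‖fderiv ℝ ψ x - fderiv ℝ ψ y‖ ≤ L * ‖x - y‖)
    (hκ' : ∀ x ∈ s, ∀ y ∈ s, κ * ‖x - y‖ ≤ ‖ψ x - ψ y‖)
    (hρ : 2 * L * ρ ≤ κ ^ 2) (c : F) {r : ℝ} (hr : r ≤ ρ) :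
    Convex ℝ {w | w ∈ s ∧ ‖ψ w - c‖ < r} := by
  intro x hx y hy a b ha hb hab
  obtain ⟨hxs, hxr⟩ := hx
  obtain ⟨hys, hyr⟩ := hy
  have ha' : a = 1 - b := by linarith
  subst ha'
  refine ⟨hs hxs hys ha hb hab, ?_⟩
  set p := ψ x - c with hp
  set q := ψ y - c with hq
  set m := max ‖p‖ ‖q‖ with hm
  have hmr : m < r := max_lt hxr hyr
  have hm0 : 0 ≤ m := le_max_of_le_left (norm_nonneg _)
  set δ := ‖y - x‖ with hδ
  have hchord := chord_estimate hs hf hL hL' hxs hys hb (by linarith : b ≤ 1)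
  have hid : ψ ((1 - b) • x + b • y) - c
      = (ψ ((1 - b) • x + b • y) - ((1 - b) • ψ x + b • ψ y)) + ((1 - b) • p + b • q) := by
    rw [hp, hq]; module
  have hpq : κ * δ ≤ ‖p - q‖ := by
    have := hκ' x hxs y hys
    rw [norm_sub_rev x y] at this
    have e : p - q = ψ x - ψ y := by rw [hp, hq]; abel
    rw [e]; exact this
  have hsq : ‖(1 - b) • p + b • q‖ ^ 2
      = (1 - b) * ‖p‖ ^ 2 + b * ‖q‖ ^ 2 - b * (1 - b) * ‖p - q‖ ^ 2 := by
    rw [norm_add_sq_real, norm_sub_sq_real p q, norm_smul, norm_smul, Real.norm_of_nonneg ha,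
      Real.norm_of_nonneg hb, real_inner_smul_left, real_inner_smul_right]
    ring
  set Q := b * (1 - b) * δ ^ 2 with hQ
  have hQ0 : 0 ≤ Q := by positivity
  have hn : ‖(1 - b) • p + b • q‖ ^ 2 ≤ m ^ 2 - κ ^ 2 * Q := by
    rw [hsq]
    have h1 : ‖p‖ ^ 2 ≤ m ^ 2 := by
      have := le_max_left ‖p‖ ‖q‖
      gcongr
    have h2 : ‖q‖ ^ 2 ≤ m ^ 2 := by
      have := le_max_right ‖p‖ ‖q‖
      gcongr
    have h3 : (κ * δ) ^ 2 ≤ ‖p - q‖ ^ 2 := by
      have : 0 ≤ κ * δ := by positivity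
      gcongr
    have h4 : b * (1 - b) * (κ * δ) ^ 2 ≤ b * (1 - b) * ‖p - q‖ ^ 2 := by
      have : 0 ≤ b * (1 - b) := by positivity
      gcongr
    nlinarith
  have hmL : 2 * L * m ≤ κ ^ 2 := by
    have : 2 * L * m ≤ 2 * L * ρ := by
      have : m ≤ ρ := by linarith
      gcongr
    linarith
  have hκQ : κ ^ 2 * Q ≤ m ^ 2 := by nlinarith [sq_nonneg ‖(1 - b) • p + b • q‖]
  have hLQ : L * Q ≤ m := by
    have hκ2 : 0 < κ ^ 2 := by positivity
    -- κ² (L Q) ≤ L m² ≤ κ² m / 2
    have h1 : κ ^ 2 * (L * Q) ≤ κ ^ 2 * m := by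
      calc κ ^ 2 * (L * Q) = L * (κ ^ 2 * Q) := by ring
        _ ≤ L * m ^ 2 := by gcongr
        _ ≤ κ ^ 2 * m := by nlinarith
    exact le_of_mul_le_mul_left h1 hκ2
  have hnorm : ‖(1 - b) • p + b • q‖ ≤ m - L * Q := by
    apply abs_le_of_sq_le_sq' _ (by linarith) |>.2
    nlinarith [mul_le_mul_of_nonneg_right hmL hQ0, sq_nonneg (L * Q)]
  rw [hid]
  calc ‖(ψ ((1 - b) • x + b • y) - ((1 - b) • ψ x + b • ψ y)) + ((1 - b) • p + b • q)‖
      ≤ L * (b * (1 - b)) * δ ^ 2 + (m - L * Q) := (norm_add_le _ _).trans (add_le_add hchord hnorm)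
    _ = m := by rw [hQ]; ring
    _ < r := hmr

end Normed

section Local

variable {E F : Type*} [NormedAddCommGroup E] [NormedSpace ℝ E] [NormedAddCommGroup F]
  [InnerProductSpace ℝ F] {X : Type*} [TopologicalSpace X]

/-- the `A`-ball of radius `r` around `c` -/
def aball (A : E ≃L[ℝ] F) (c : E) (r : ℝ) : Set E := {w | ‖A w - A c‖ < r}

theorem mem_aball {A : E ≃L[ℝ] F} {c : E} {r : ℝ} {w : E} :
    w ∈ aball A c r ↔ ‖A w - A c‖ < r := Iff.rfl

theorem isOpen_aball (A : E ≃L[ℝ] F) (c : E) (r : ℝ) : IsOpen (aball A c r) := by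
  have : Continuous fun w : E => ‖A w - A c‖ := by fun_prop
  exact isOpen_lt this continuous_const

theorem aball_mem_nhds (A : E ≃L[ℝ] F) (c : E) {r : ℝ} (hr : 0 < r) : aball A c r ∈ 𝓝 c :=
  (isOpen_aball A c r).mem_nhds (by simpa [aball] using hr)

theorem convex_aball (A : E ≃L[ℝ] F) (c : E) (r : ℝ) : Convex ℝ (aball A c r) := by
  have : aball A c r = (A : E →ₗ[ℝ] F) ⁻¹' Metric.ball (A c) r := by
    ext w; simp [aball, dist_eq_norm]
  rw [this]
  exact (convex_ball _ _).linear_preimage _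

/-- every neighbourhood contains a small `A`-ball -/
theorem exists_aball_subset (A : E ≃L[ℝ] F) {c : E} {s : Set E} (hs : s ∈ 𝓝 c) :
    ∃ r > 0, aball A c r ⊆ s := by
  have h : A.symm ⁻¹' s ∈ 𝓝 (A c) := by
    apply A.symm.continuous.continuousAt.preimage_mem_nhds
    simpa using hs
  obtain ⟨r, hr, hrs⟩ := Metric.mem_nhds_iff.1 h
  refine ⟨r, hr, fun w hw => ?_⟩
  have : A w ∈ Metric.ball (A c) r := by simpa [dist_eq_norm, aball] using hw
  simpa using hrs this

/-- small balls of the chart `b` are convex in the chart `a` -/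
theorem local_convex (A : E ≃L[ℝ] F) (a b : OpenPartialHomeomorph X E) {x : X}
    (hxa : x ∈ a.source) (hxb : x ∈ b.source)
    (h1 : ContDiffAt ℝ 2 (b ∘ a.symm) (a x)) (h2 : ContDiffAt ℝ 1 (a ∘ b.symm) (b x)) :
    ∃ ε > 0, ∀ u ∈ aball A (b x) ε, ∀ r ≤ ε, aball A u r ⊆ b.target ∧
      b.symm '' aball A u r ⊆ a.source ∧ Convex ℝ (a '' (b.symm '' aball A u r)) := by
  set ψ : E → F := fun w => A (b (a.symm w)) with hψ
  have hψ2 : ContDiffAt ℝ 2 ψ (a x) := A.contDiff.contDiffAt.comp (a x) h1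
  have hxa' : a.symm (a x) = x := a.left_inv hxa
  -- the inverse map
  set φ : F → E := fun v => a (b.symm (A.symm v)) with hφ
  have hφ1 : ContDiffAt ℝ 1 φ (A (b x)) := by
    have h2' : ContDiffAt ℝ 1 (a ∘ b.symm) (A.symm (A (b x))) := by simpa using h2
    exact ContDiffAt.comp (g := (a ∘ b.symm : E → E)) (f := fun v : F => A.symm v) (A (b x)) h2'
      A.symm.contDiff.contDiffAt
  obtain ⟨K', t', ht', hK'⟩ := hφ1.exists_lipschitzOnWith
  obtain ⟨K, t, ht, hK⟩ := (hψ2.fderiv_right (m := 1) (by norm_num)).exists_lipschitzOnWith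
  -- continuity facts
  have hψc : ContinuousAt ψ (a x) := hψ2.continuousAt
  have hd : ∀ᶠ w in 𝓝 (a x), DifferentiableAt ℝ ψ w := by
    filter_upwards [hψ2.eventually (by simp)] with w hw using hw.differentiableAt (by simp)
  have hasym : ContinuousAt a.symm (a x) := a.continuousAt_symm (a.map_source hxa)
  have hta : ∀ᶠ w in 𝓝 (a x), w ∈ a.target := a.open_target.mem_nhds (a.map_source hxa)
  have hsb : ∀ᶠ w in 𝓝 (a x), a.symm w ∈ b.source := by
    apply hasym.preimage_mem_nhds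
    rw [hxa']
    exact b.open_source.mem_nhds hxb
  have hψt' : ∀ᶠ w in 𝓝 (a x), ψ w ∈ t' := by
    apply hψc.preimage_mem_nhds
    simpa [hψ, hxa'] using ht'
  obtain ⟨R, hR, hRs⟩ := Metric.eventually_nhds_iff_ball.1
    (hd.and (hta.and (hsb.and (hψt'.and ht))))
  set s := Metric.ball (a x) R with hs
  -- continuity of `a ∘ b.symm`
  have hbt : ∀ᶠ v in 𝓝 (b x), v ∈ b.target := b.open_target.mem_nhds (b.map_source hxb)
  have hbsym : ContinuousAt b.symm (b x) := b.continuousAt_symm (b.map_source hxb)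
  have hxb' : b.symm (b x) = x := b.left_inv hxb
  have hbs : ∀ᶠ v in 𝓝 (b x), b.symm v ∈ a.source := by
    apply hbsym.preimage_mem_nhds
    rw [hxb']
    exact a.open_source.mem_nhds hxa
  have hab : ∀ᶠ v in 𝓝 (b x), a (b.symm v) ∈ s := by
    have : ContinuousAt (a ∘ b.symm) (b x) := h2.continuousAt
    apply this.preimage_mem_nhds
    simp only [Function.comp, hxb']
    exact Metric.ball_mem_nhds _ hR
  obtain ⟨ε₁, hε₁, hε₁s⟩ := exists_aball_subset A (hbt.and (hbs.and hab))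
  -- constants
  set κ : ℝ := 1 / (K' + 1) with hκ
  have hK'0 : (0:ℝ) ≤ K' := K'.2
  have hκ0 : 0 < κ := by positivity
  have hK0 : (0:ℝ) ≤ K := K.2
  set ε := min (ε₁ / 2) (κ ^ 2 / (2 * K + 1)) with hε
  have hε0 : 0 < ε := by positivity
  refine ⟨ε, hε0, fun u hu r hr => ?_⟩
  have hsub : aball A u r ⊆ aball A (b x) ε₁ := by
    intro w hw
    have h3 : ε ≤ ε₁ / 2 := min_le_left _ _
    have h4 : A w - A (b x) = (A w - A u) + (A u - A (b x)) := by abel
    rw [mem_aball] at hw hu ⊢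
    rw [h4]
    calc _ ≤ ‖A w - A u‖ + ‖A u - A (b x)‖ := norm_add_le _ _
      _ < ε₁ := by linarith
  refine ⟨fun w hw => (hε₁s (hsub hw)).1, ?_, ?_⟩
  · rintro _ ⟨w, hw, rfl⟩
    exact (hε₁s (hsub hw)).2.1
  have hset : a '' (b.symm '' aball A u r) = {w | w ∈ s ∧ ‖ψ w - A u‖ < r} := by
    ext w
    constructor
    · rintro ⟨_, ⟨v, hv, rfl⟩, rfl⟩
      obtain ⟨g1, g2, g3⟩ := hε₁s (hsub hv)
      refine ⟨g3, ?_⟩
      have : ψ (a (b.symm v)) = A v := by
        simp only [hψ]
        rw [a.left_inv g2, b.right_inv g1]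
      rw [this]
      exact hv
    · rintro ⟨hws, hwr⟩
      obtain ⟨_, g1, g2, _, _⟩ := hRs w hws
      refine ⟨a.symm w, ⟨b (a.symm w), hwr, b.left_inv g2⟩, a.right_inv g1⟩
  rw [hset]
  refine convex_sublevel (convex_ball _ _) (fun w hw => (hRs w hw).1) (L := K) (κ := κ) (ρ := ε)
    hK0 hκ0 ?_ ?_ ?_ (A u) hr
  · intro w hw w' hw'
    have := hK.dist_le_mul w (hRs w hw).2.2.2.2 w' (hRs w' hw').2.2.2.2
    simpa [dist_eq_norm] using this
  · intro w hw w' hw'
    obtain ⟨_, g1, g2, g3, _⟩ := hRs w hw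
    obtain ⟨_, g1', g2', g3', _⟩ := hRs w' hw'
    have := hK'.dist_le_mul (ψ w) g3 (ψ w') g3'
    have e1 : φ (ψ w) = w := by
      simp only [hψ, hφ, ContinuousLinearEquiv.symm_apply_apply]
      rw [b.left_inv g2, a.right_inv g1]
    have e2 : φ (ψ w') = w' := by
      simp only [hψ, hφ, ContinuousLinearEquiv.symm_apply_apply]
      rw [b.left_inv g2', a.right_inv g1']
    rw [e1, e2, dist_eq_norm, dist_eq_norm] at this
    rw [hκ]
    rw [one_div, inv_mul_le_iff₀ (by positivity)]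
    nlinarith [norm_nonneg (ψ w - ψ w')]
  · have : ε ≤ κ ^ 2 / (2 * K + 1) := min_le_right _ _
    have h5 : ε * (2 * K + 1) ≤ κ ^ 2 := by
      rwa [le_div_iff₀ (by positivity)] at this
    nlinarith

end Local

section Global

variable {E F : Type*} [NormedAddCommGroup E] [NormedSpace ℝ E] [FiniteDimensional ℝ E]
  [NormedAddCommGroup F] [InnerProductSpace ℝ F] {X : Type*} [TopologicalSpace X]

/-- the chart ball -/
def cball (A : E ≃L[ℝ] F) (e : OpenPartialHomeomorph X E) (c : E) (r : ℝ) : Set X :=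
  e.symm '' aball A c r

/-- data of a good cover -/
structure GoodCover (X : Type*) [TopologicalSpace X] {E F : Type*} [NormedAddCommGroup E]
    [NormedSpace ℝ E] [NormedAddCommGroup F] [InnerProductSpace ℝ F] [ChartedSpace E X]
    (A : E ≃L[ℝ] F) where
  /-- number of members -/
  n : ℕ
  /-- the charts -/
  e : Fin n → OpenPartialHomeomorph X E
  /-- the centres -/
  c : Fin n → E
  /-- the radius -/
  r : ℝ
  r_pos : 0 < r
  e_mem : ∀ i, e i ∈ atlas E X
  closed_sub : ∀ i, {w | ‖A w - A (c i)‖ ≤ r} ⊆ (e i).target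
  cover : ∀ x, ∃ i, x ∈ cball A (e i) (c i) (r / 2)
  sub : ∀ i j, (cball A (e i) (c i) r ∩ cball A (e j) (c j) r).Nonempty →
    cball A (e j) (c j) r ⊆ (e i).source
  conv : ∀ i j, (cball A (e i) (c i) r ∩ cball A (e j) (c j) r).Nonempty →
    Convex ℝ (e i '' cball A (e j) (c j) r)

omit [FiniteDimensional ℝ E] in
theorem isCompact_closed_aball [FiniteDimensional ℝ F] (A : E ≃L[ℝ] F) (c : E) (r : ℝ) :
    IsCompact {w | ‖A w - A c‖ ≤ r} := by
  have h : {w : E | ‖A w - A c‖ ≤ r} = A.symm '' Metric.closedBall (A c) r := by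
    ext w
    constructor
    · intro hw
      exact ⟨A w, by simpa [dist_eq_norm] using hw, by simp⟩
    · rintro ⟨v, hv, rfl⟩
      simpa [dist_eq_norm] using hv
  rw [h]
  exact (isCompact_closedBall (A c) r).image A.symm.continuous

theorem exists_goodCover [CompactSpace X] [T2Space X] [ChartedSpace E X] (A : E ≃L[ℝ] F)
    (hC : ∀ e ∈ atlas E X, ∀ e' ∈ atlas E X,
      ContDiffOn ℝ 2 (e' ∘ e.symm) (e.symm.trans e').source)
    {κ : Type*} (V : κ → Set X) (hV : ∀ k, IsOpen (V k)) (hVc : ∀ x, ∃ k, x ∈ V k) :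
    ∃ G : GoodCover X A, ∀ i, ∃ k, cball A (G.e i) (G.c i) G.r ⊆ V k := by
  have : FiniteDimensional ℝ F := LinearEquiv.finiteDimensional A.toLinearEquiv
  classical
  -- charts and radii
  have hδ : ∀ x : X, ∃ δ > 0, {w | ‖A w - A (chartAt E x x)‖ ≤ 3 * δ} ⊆ (chartAt E x).target := by
    intro x
    obtain ⟨r, hr, hrs⟩ := exists_aball_subset A
      ((chartAt E x).open_target.mem_nhds (mem_chart_target E x))
    refine ⟨r / 6, by positivity, fun w hw => hrs ?_⟩
    have hw' : ‖A w - A (chartAt E x x)‖ ≤ 3 * (r / 6) := hw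
    rw [mem_aball]
    linarith
  choose δ hδ0 hδs using hδ
  set K : X → Set X := fun x => (chartAt E x).symm '' {w | ‖A w - A (chartAt E x x)‖ ≤ δ x} with hK
  set K' : X → Set X := fun x => (chartAt E x).symm '' {w | ‖A w - A (chartAt E x x)‖ ≤ 2 * δ x}
    with hK'
  set O : X → Set X := fun x => cball A (chartAt E x) (chartAt E x x) (δ x) with hO
  have hsub1 : ∀ x, {w | ‖A w - A (chartAt E x x)‖ ≤ δ x} ⊆ (chartAt E x).target := fun x w hw =>
    hδs x (by
      have h1 : ‖A w - A (chartAt E x x)‖ ≤ δ x := hw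
      have h2 := hδ0 x
      rw [mem_ofPred_eq]
      linarith)
  have hsub2 : ∀ x, {w | ‖A w - A (chartAt E x x)‖ ≤ 2 * δ x} ⊆ (chartAt E x).target :=
    fun x w hw => hδs x (by
      have h1 : ‖A w - A (chartAt E x x)‖ ≤ 2 * δ x := hw
      have h2 := hδ0 x
      rw [mem_ofPred_eq]
      linarith)
  have hKc : ∀ x, IsClosed (K x) := fun x =>
    ((isCompact_closed_aball A _ _).image_of_continuousOn
      ((chartAt E x).continuousOn_symm.mono (hsub1 x))).isClosed
  have hKc' : ∀ x, IsClosed (K' x) := fun x =>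
    ((isCompact_closed_aball A _ _).image_of_continuousOn
      ((chartAt E x).continuousOn_symm.mono (hsub2 x))).isClosed
  have hKs : ∀ x, K x ⊆ (chartAt E x).source := by
    rintro x _ ⟨w, hw, rfl⟩
    exact (chartAt E x).map_target (hsub1 x hw)
  have hKs' : ∀ x, K' x ⊆ (chartAt E x).source := by
    rintro x _ ⟨w, hw, rfl⟩
    exact (chartAt E x).map_target (hsub2 x hw)
  have hOo : ∀ x, IsOpen (O x) := by
    intro x
    apply (chartAt E x).isOpen_image_symm_of_subset_target (isOpen_aball _ _ _)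
    intro w hw
    exact hsub1 x (mem_ofPred.2 (le_of_lt (mem_aball.1 hw)))
  have hOx : ∀ x, x ∈ O x := fun x =>
    ⟨chartAt E x x, by simpa [mem_aball] using hδ0 x, (chartAt E x).left_inv (mem_chart_source E x)⟩
  have hOK : ∀ x, O x ⊆ K x := by
    rintro x _ ⟨w, hw, rfl⟩
    exact ⟨w, mem_ofPred.2 (le_of_lt (mem_aball.1 hw)), rfl⟩
  obtain ⟨T, hT⟩ := isCompact_univ.elim_finite_subcover O hOo
    (fun x _ => mem_iUnion.2 ⟨x, hOx x⟩)
  -- the key local statement
  have hloc : ∀ z : X, ∃ N ∈ 𝓝 z, ∀ᶠ r in 𝓝[>] (0:ℝ), ∀ y ∈ N, ∀ b ∈ T, y ∈ K b →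
      (∃ k, cball A (chartAt E b) (chartAt E b y) r ⊆ V k) ∧
      ∀ a ∈ T, (cball A (chartAt E b) (chartAt E b y) r ∩ K' a).Nonempty →
        cball A (chartAt E b) (chartAt E b y) r ⊆ (chartAt E a).source ∧
        Convex ℝ (chartAt E a '' cball A (chartAt E b) (chartAt E b y) r) := by
    intro z
    obtain ⟨k, hk⟩ := hVc z
    -- the open neighbourhood `W`
    set W : Set X := V k ∩ ⋂ a ∈ T.filter (fun a => z ∉ K' a), (K' a)ᶜ with hW
    have hWo : IsOpen W := (hV k).inter
      (isOpen_biInter_finset fun a _ => (hKc' a).isOpen_compl)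
    have hzW : z ∈ W := ⟨hk, by simp [Finset.mem_filter]⟩
    -- for each `b` a neighbourhood
    have hb : ∀ b ∈ T, ∃ N ∈ 𝓝 z, ∀ᶠ r in 𝓝[>] (0:ℝ), ∀ y ∈ N, y ∈ K b →
      (∃ k, cball A (chartAt E b) (chartAt E b y) r ⊆ V k) ∧
      ∀ a ∈ T, (cball A (chartAt E b) (chartAt E b y) r ∩ K' a).Nonempty →
        cball A (chartAt E b) (chartAt E b y) r ⊆ (chartAt E a).source ∧
        Convex ℝ (chartAt E a '' cball A (chartAt E b) (chartAt E b y) r) := by
      intro b hbT
      by_cases hzb : z ∈ K b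
      swap
      · refine ⟨(K b)ᶜ, (hKc b).isOpen_compl.mem_nhds hzb, ?_⟩
        exact Eventually.of_forall fun r y hy hy' => absurd hy' hy
      have hzbs : z ∈ (chartAt E b).source := hKs b hzb
      have hzbt : chartAt E b z ∈ (chartAt E b).target := (chartAt E b).map_source hzbs
      have hWn : (chartAt E b).symm ⁻¹' W ∈ 𝓝 (chartAt E b z) := by
        apply ((chartAt E b).continuousAt_symm hzbt).preimage_mem_nhds
        rw [(chartAt E b).left_inv hzbs]
        exact hWo.mem_nhds hzW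
      obtain ⟨η, hη, hηs⟩ := exists_aball_subset A hWn
      -- for each `a` with `z ∈ K' a`, a number
      have ha : ∀ a ∈ T, ∃ ε > 0, z ∈ K' a → ∀ u ∈ aball A (chartAt E b z) ε, ∀ r ≤ ε,
          (chartAt E b).symm '' aball A u r ⊆ (chartAt E a).source ∧
          Convex ℝ (chartAt E a '' ((chartAt E b).symm '' aball A u r)) := by
        intro a _
        by_cases hza : z ∈ K' a
        swap
        · exact ⟨1, one_pos, fun h => absurd h hza⟩
        have hzas := hKs' a hza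
        have c1 : ContDiffAt ℝ 2 (chartAt E b ∘ (chartAt E a).symm) (chartAt E a z) := by
          refine (hC _ (chart_mem_atlas E a) _ (chart_mem_atlas E b)).contDiffAt ?_
          apply ((chartAt E a).symm.trans (chartAt E b)).open_source.mem_nhds
          simp only [OpenPartialHomeomorph.trans_source, OpenPartialHomeomorph.symm_source,
            mem_inter_iff, mem_preimage]
          refine ⟨(chartAt E a).map_source hzas, ?_⟩
          rw [(chartAt E a).left_inv hzas]
          exact hzbs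
        have c2 : ContDiffAt ℝ 2 (chartAt E a ∘ (chartAt E b).symm) (chartAt E b z) := by
          refine (hC _ (chart_mem_atlas E b) _ (chart_mem_atlas E a)).contDiffAt ?_
          apply ((chartAt E b).symm.trans (chartAt E a)).open_source.mem_nhds
          simp only [OpenPartialHomeomorph.trans_source, OpenPartialHomeomorph.symm_source,
            mem_inter_iff, mem_preimage]
          refine ⟨(chartAt E b).map_source hzbs, ?_⟩
          rw [(chartAt E b).left_inv hzbs]
          exact hzas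
        obtain ⟨ε, hε, h⟩ := local_convex A (chartAt E a) (chartAt E b) hzas hzbs c1
          (c2.of_le (by norm_num))
        exact ⟨ε, hε, fun _ u hu r hr => ⟨(h u hu r hr).2.1, (h u hu r hr).2.2⟩⟩
      choose! ε hε0 hε using ha
      -- a common positive lower bound
      obtain ⟨ε₀, hε₀, hε₀le⟩ : ∃ ε₀ > 0, ∀ a ∈ T, ε₀ ≤ ε a := by
        rcases T.eq_empty_or_nonempty with hTe | hTn
        · exact ⟨1, one_pos, by simp [hTe]⟩
        · obtain ⟨a, haT, ha⟩ := T.exists_min_image ε hTn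
          exact ⟨ε a, hε0 a haT, ha⟩
      set ζ := min (η / 2) ε₀ with hζ
      have hζ0 : 0 < ζ := by positivity
      refine ⟨(chartAt E b).source ∩ chartAt E b ⁻¹' aball A (chartAt E b z) ζ, ?_, ?_⟩
      · exact inter_mem ((chartAt E b).open_source.mem_nhds hzbs)
          (((chartAt E b).continuousAt hzbs).preimage_mem_nhds (aball_mem_nhds A _ hζ0))
      have hev : ∀ᶠ r in 𝓝[>] (0:ℝ), r < ζ := by
        filter_upwards [Ioo_mem_nhdsGT hζ0] with r hr using hr.2
      filter_upwards [hev] with r hr y hy _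
      have hyu : ‖A (chartAt E b y) - A (chartAt E b z)‖ < ζ := hy.2
      have hballW : cball A (chartAt E b) (chartAt E b y) r ⊆ W := by
        rintro _ ⟨w, hw, rfl⟩
        apply hηs
        rw [mem_aball] at hw ⊢
        have h4 : A w - A (chartAt E b z)
          = (A w - A (chartAt E b y)) + (A (chartAt E b y) - A (chartAt E b z)) := by abel
        have hζη : ζ ≤ η / 2 := min_le_left _ _
        rw [h4]
        calc _ ≤ ‖A w - A (chartAt E b y)‖ + ‖A (chartAt E b y) - A (chartAt E b z)‖ :=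
              norm_add_le _ _
          _ < η := by linarith
      refine ⟨⟨k, fun p hp => (hballW hp).1⟩, fun a haT hne => ?_⟩
      have hza : z ∈ K' a := by
        by_contra hza
        obtain ⟨p, hp, hpK⟩ := hne
        have := (hballW hp).2
        simp only [mem_iInter] at this
        exact this a (Finset.mem_filter.2 ⟨haT, hza⟩) hpK
      have hζε : ζ ≤ ε a := (min_le_right _ _).trans (hε₀le a haT)
      exact hε a haT hza (chartAt E b y) (lt_of_lt_of_le hyu hζε) r (by linarith)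
    choose! N hN hN' using hb
    refine ⟨⋂ b ∈ T, N b, (biInter_finset_mem T).2 hN, ?_⟩
    have : ∀ᶠ r in 𝓝[>] (0:ℝ), ∀ b ∈ T, ∀ y ∈ N b, y ∈ K b →
      (∃ k, cball A (chartAt E b) (chartAt E b y) r ⊆ V k) ∧
      ∀ a ∈ T, (cball A (chartAt E b) (chartAt E b y) r ∩ K' a).Nonempty →
        cball A (chartAt E b) (chartAt E b y) r ⊆ (chartAt E a).source ∧
        Convex ℝ (chartAt E a '' cball A (chartAt E b) (chartAt E b y) r) :=
      (eventually_all_finset T).2 hN'
    filter_upwards [this] with r hr y hy b hb hyb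
    exact hr b hb y (by
      simp only [mem_iInter] at hy
      exact hy b hb) hyb
  -- uniform radius
  have huni : ∀ᶠ r in 𝓝[>] (0:ℝ), ∀ y ∈ (univ : Set X), ∀ b ∈ T, y ∈ K b →
      (∃ k, cball A (chartAt E b) (chartAt E b y) r ⊆ V k) ∧
      ∀ a ∈ T, (cball A (chartAt E b) (chartAt E b y) r ∩ K' a).Nonempty →
        cball A (chartAt E b) (chartAt E b y) r ⊆ (chartAt E a).source ∧
        Convex ℝ (chartAt E a '' cball A (chartAt E b) (chartAt E b y) r) := by
    refine isCompact_univ.induction_on (p := fun S => ∀ᶠ r in 𝓝[>] (0:ℝ), ∀ y ∈ S, ∀ b ∈ T,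
      y ∈ K b → (∃ k, cball A (chartAt E b) (chartAt E b y) r ⊆ V k) ∧
      ∀ a ∈ T, (cball A (chartAt E b) (chartAt E b y) r ∩ K' a).Nonempty →
        cball A (chartAt E b) (chartAt E b y) r ⊆ (chartAt E a).source ∧
        Convex ℝ (chartAt E a '' cball A (chartAt E b) (chartAt E b y) r)) ?_ ?_ ?_ ?_
    · exact Eventually.of_forall fun r y hy => absurd hy (notMem_empty y)
    · intro s t hst ht
      filter_upwards [ht] with r hr y hy using hr y (hst hy)
    · intro s t hs ht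
      filter_upwards [hs, ht] with r h1 h2 y hy
      rcases hy with hy | hy
      · exact h1 y hy
      · exact h2 y hy
    · intro z _
      obtain ⟨N, hN, h⟩ := hloc z
      exact ⟨N, mem_nhdsWithin_of_mem_nhds hN, h⟩
  have hsmall : ∀ᶠ r in 𝓝[>] (0:ℝ), 0 < r ∧ ∀ b ∈ T, r < δ b := by
    refine (eventually_mem_nhdsWithin (s := Ioi (0:ℝ))).and ?_
    refine (eventually_all_finset T).2 fun b _ => ?_
    filter_upwards [Ioo_mem_nhdsGT (hδ0 b)] with r hr using hr.2
  obtain ⟨r, hr, hr0, hrδ⟩ := (huni.and hsmall).exists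
  -- final selection
  have hsel : ∀ y : X, ∃ b ∈ T, y ∈ O b := by
    intro y
    have := hT (mem_univ y)
    simpa using this
  choose β hβT hβ using hsel
  have hUo : ∀ y, IsOpen (cball A (chartAt E (β y)) (chartAt E (β y) y) (r / 2)) := by
    intro y
    apply (chartAt E (β y)).isOpen_image_symm_of_subset_target (isOpen_aball _ _ _)
    intro w hw
    apply hsub2
    obtain ⟨v, hv, hvy⟩ := hOK _ (hβ y)
    have hw' : ‖A w - A (chartAt E (β y) y)‖ < r / 2 := hw
    have hv' : ‖A v - A (chartAt E (β y) (β y))‖ ≤ δ (β y) := hv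
    have hyv : chartAt E (β y) y = v := by
      have := (chartAt E (β y)).right_inv (hsub1 _ hv)
      rwa [hvy] at this
    rw [hyv] at hw'
    have h4 : A w - A (chartAt E (β y) (β y)) = (A w - A v) + (A v - A (chartAt E (β y) (β y))) := by
      abel
    show ‖_‖ ≤ _
    rw [h4]
    have := hrδ _ (hβT y)
    calc _ ≤ ‖A w - A v‖ + ‖A v - A (chartAt E (β y) (β y))‖ := norm_add_le _ _
      _ ≤ 2 * δ (β y) := by linarith
  obtain ⟨Y, hY⟩ := isCompact_univ.elim_finite_subcover
    (fun y => cball A (chartAt E (β y)) (chartAt E (β y) y) (r / 2)) hUo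
    (fun y _ => mem_iUnion.2 ⟨y, chartAt E (β y) y, by simpa [mem_aball] using hr0,
      (chartAt E (β y)).left_inv (hKs _ (hOK _ (hβ y)))⟩)
  have hball : ∀ y, {w | ‖A w - A (chartAt E (β y) y)‖ ≤ r} ⊆
      {w | ‖A w - A (chartAt E (β y) (β y))‖ ≤ 2 * δ (β y)} := by
    intro y w hw
    obtain ⟨v, hv, hvy⟩ := hOK _ (hβ y)
    have hw' : ‖A w - A (chartAt E (β y) y)‖ ≤ r := hw
    have hv' : ‖A v - A (chartAt E (β y) (β y))‖ ≤ δ (β y) := hv
    have hyv : chartAt E (β y) y = v := by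
      have := (chartAt E (β y)).right_inv (hsub1 _ hv)
      rwa [hvy] at this
    rw [hyv] at hw'
    have h4 : A w - A (chartAt E (β y) (β y)) = (A w - A v) + (A v - A (chartAt E (β y) (β y))) := by
      abel
    show ‖_‖ ≤ _
    rw [h4]
    have := hrδ _ (hβT y)
    calc _ ≤ ‖A w - A v‖ + ‖A v - A (chartAt E (β y) (β y))‖ := norm_add_le _ _
      _ ≤ 2 * δ (β y) := by linarith
  have hballK' : ∀ y, cball A (chartAt E (β y)) (chartAt E (β y) y) r ⊆ K' (β y) := by
    rintro y _ ⟨w, hw, rfl⟩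
    exact ⟨w, hball y (mem_ofPred.2 (le_of_lt (mem_aball.1 hw))), rfl⟩
  let eq : Fin Y.card ≃ Y := Y.equivFin.symm
  have hres : ∀ y : X, _ := fun y => hr y (mem_univ y) (β y) (hβT y) (hOK _ (hβ y))
  refine ⟨{ n := Y.card
            e := fun i => chartAt E (β (eq i))
            c := fun i => chartAt E (β (eq i)) (eq i)
            r := r
            r_pos := hr0
            e_mem := fun i => chart_mem_atlas E _
            closed_sub := fun i => (hball _).trans (hsub2 _)
            cover := ?_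
            sub := ?_
            conv := ?_ }, ?_⟩
  · intro x
    have := hY (mem_univ x)
    simp only [mem_iUnion] at this
    obtain ⟨y, hyY, hxy⟩ := this
    refine ⟨eq.symm ⟨y, hyY⟩, ?_⟩
    simpa using hxy
  · intro i j hne
    refine ((hres (eq j)).2 (β (eq i)) (hβT _) ?_).1
    obtain ⟨p, hp1, hp2⟩ := hne
    exact ⟨p, hp2, hballK' _ hp1⟩
  · intro i j hne
    refine ((hres (eq j)).2 (β (eq i)) (hβT _) ?_).2
    obtain ⟨p, hp1, hp2⟩ := hne
    exact ⟨p, hp2, hballK' _ hp1⟩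
  · intro i
    exact (hres (eq i)).1

namespace GoodCover

omit [FiniteDimensional ℝ E]

variable [ChartedSpace E X] {A : E ≃L[ℝ] F} (G : GoodCover X A)

/-- the members of the cover -/
def U (i : Fin G.n) : Set X := cball A (G.e i) (G.c i) G.r

theorem aball_sub (i : Fin G.n) : aball A (G.c i) G.r ⊆ (G.e i).target :=
  fun _ hw => G.closed_sub i (mem_ofPred.2 (le_of_lt (mem_aball.1 hw)))

theorem isOpen_U (i : Fin G.n) : IsOpen (G.U i) :=
  (G.e i).isOpen_image_symm_of_subset_target (isOpen_aball _ _ _) (G.aball_sub i)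

theorem U_sub_source (i : Fin G.n) : G.U i ⊆ (G.e i).source := by
  rintro _ ⟨w, hw, rfl⟩
  exact (G.e i).map_target (G.aball_sub i hw)

theorem exists_mem_U (x : X) : ∃ i, x ∈ G.U i := by
  obtain ⟨i, w, hw, rfl⟩ := G.cover x
  refine ⟨i, w, ?_, rfl⟩
  rw [mem_aball] at hw ⊢
  have := G.r_pos
  linarith

theorem image_U (i : Fin G.n) : G.e i '' G.U i = aball A (G.c i) G.r := by
  ext w
  constructor
  · rintro ⟨_, ⟨v, hv, rfl⟩, rfl⟩
    rwa [(G.e i).right_inv (G.aball_sub i hv)]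
  · intro hw
    exact ⟨_, ⟨w, hw, rfl⟩, (G.e i).right_inv (G.aball_sub i hw)⟩

/-- nonempty finite intersections lie in every chart of a member and are convex there -/
theorem inter_convex {s : Finset (Fin G.n)} {i : Fin G.n} (hi : i ∈ s)
    (hne : (⋂ j ∈ s, G.U j).Nonempty) :
    (∀ j ∈ s, G.U j ⊆ (G.e i).source) ∧ Convex ℝ (G.e i '' ⋂ j ∈ s, G.U j) ∧
      IsOpen (G.e i '' ⋂ j ∈ s, G.U j) := by
  have hpair : ∀ j ∈ s, (G.U i ∩ G.U j).Nonempty := by
    intro j hj
    obtain ⟨p, hp⟩ := hne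
    simp only [mem_iInter] at hp
    exact ⟨p, hp i hi, hp j hj⟩
  have hsub : ∀ j ∈ s, G.U j ⊆ (G.e i).source := fun j hj => G.sub i j (hpair j hj)
  have himg : G.e i '' (⋂ j ∈ s, G.U j) = ⋂ j ∈ s, G.e i '' G.U j := by
    ext w
    constructor
    · rintro ⟨p, hp, rfl⟩
      simp only [mem_iInter] at hp ⊢
      exact fun j hj => ⟨p, hp j hj, rfl⟩
    · intro hw
      simp only [mem_iInter] at hw
      obtain ⟨p, hp, rfl⟩ := hw i hi
      refine ⟨p, ?_, rfl⟩
      simp only [mem_iInter]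
      intro j hj
      obtain ⟨q, hq, hqp⟩ := hw j hj
      have : q = p := (G.e i).injOn (hsub j hj hq) (hsub i hi hp) hqp
      rwa [← this]
  refine ⟨hsub, ?_, ?_⟩
  · rw [himg]
    exact convex_iInter₂ fun j hj => G.conv i j (hpair j hj)
  · apply (G.e i).isOpen_image_of_subset_source
    · exact isOpen_biInter_finset fun j _ => G.isOpen_U j
    · intro p hp
      simp only [mem_iInter] at hp
      exact hsub i hi (hp i hi)

end GoodCover

/-- manifold version over `𝕜 = ℝ` or `ℂ` -/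
theorem exists_goodCover_manifold {𝕜 : Type*} [RCLike 𝕜] [NormedSpace 𝕜 E] [IsScalarTower ℝ 𝕜 E]
    {n : WithTop ℕ∞} (hn : 2 ≤ n) [CompactSpace X] [T2Space X] [ChartedSpace E X]
    [IsManifold (modelWithCornersSelf 𝕜 E) n X] (A : E ≃L[ℝ] F)
    {κ : Type*} (V : κ → Set X) (hV : ∀ k, IsOpen (V k)) (hVc : ∀ x, ∃ k, x ∈ V k) :
    ∃ G : GoodCover X A, ∀ i, ∃ k, cball A (G.e i) (G.c i) G.r ⊆ V k := by
  refine exists_goodCover A (fun e he e' he' => ?_) V hV hVc
  have h := StructureGroupoid.compatible (contDiffGroupoid n (modelWithCornersSelf 𝕜 E)) he he'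
  rw [contDiffGroupoid, mem_groupoid_of_pregroupoid] at h
  have h2 : ContDiffOn 𝕜 n (e' ∘ e.symm) (e.symm.trans e').source := by
    simpa [contDiffPregroupoid] using h.1
  exact (h2.restrict_scalars ℝ).of_le hn

end Global

end Vale.Agent.P267.H368
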